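import Mathlib

/-!
# P045: the hypergraph of two line sets with labels

`line z d` is the line through the item `z` in direction `d`; `a z` and `b z` are the lines of the
two special families through `z`. An item gets, in the part of direction `d`, the line itself, or,
if the line is `a z` or `b z`, the line together with the first label of the other special line.
There is one further part for each `j : ZMod h`.
-/

namespace Vale.Agent.P045

set_option synthInstance.maxSize 2000

/-- Vertices: lines, labelled lines, and the vertices of the further parts. -/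
abbrev Vert (L Γ : Type) (h : ℕ) := L ⊕ (L × ZMod h) ⊕ (ZMod h × Γ × ZMod h × ZMod h)

section

variable {P L D Γ : Type} {h : ℕ} (dirOf : L → D) (line : P → D → L) (a b : P → L)
  (u w : L → ZMod h) (col : L → Γ)

/-- The part of a vertex. -/
def partOf : Vert L Γ h → D ⊕ ZMod h
  | .inl l => .inl (dirOf l)
  | .inr (.inl (l, _)) => .inl (dirOf l)
  | .inr (.inr (j, _)) => .inr j

/-- The vertex of an item in each part. -/
def vtx [DecidableEq L] (z : P) : D ⊕ ZMod h → Vert L Γ h
  | .inl d => if line z d = a z then .inr (.inl (a z, u (b z)))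
      else if line z d = b z then .inr (.inl (b z, u (a z))) else .inl (line z d)
  | .inr j => .inr (.inr (j, col (a z), w (a z) - j * u (a z), w (b z) - j * u (b z)))

/-- The edge of an item. -/
def edgeOf [Fintype D] [NeZero h] [DecidableEq L] [DecidableEq Γ] (z : P) :
    Finset (Vert L Γ h) :=
  Finset.univ.image (vtx line a b u w col z)

/-- The edges of a set of items. -/
def edgesOf [Fintype D] [NeZero h] [DecidableEq L] [DecidableEq Γ] (X : Finset P) :
    Finset (Finset (Vert L Γ h)) :=
  X.image (edgeOf line a b u w col)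

lemma partOf_vtx [DecidableEq L] (hline : ∀ z d, dirOf (line z d) = d) (z : P) (i : D ⊕ ZMod h) :
    partOf dirOf (vtx line a b u w col z i) = i := by
  cases i with
  | inl d =>
    simp only [vtx]
    split_ifs with h1 h2
    · simp [partOf, ← h1, hline]
    · simp [partOf, ← h2, hline]
    · simp [partOf, hline]
  | inr j => simp [vtx, partOf]

/-- Every edge has exactly one vertex in each part. -/
lemma edge_part [Fintype D] [NeZero h] [DecidableEq L] [DecidableEq Γ]
    (hline : ∀ z d, dirOf (line z d) = d) {X : Finset P} {e : Finset (Vert L Γ h)}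
    (he : e ∈ edgesOf line a b u w col X) (i : D ⊕ ZMod h) :
    ∃! v, v ∈ e ∧ partOf dirOf v = i := by
  obtain ⟨z, -, rfl⟩ := Finset.mem_image.1 he
  refine ⟨vtx line a b u w col z i, ⟨Finset.mem_image.2 ⟨i, Finset.mem_univ _, rfl⟩,
    partOf_vtx dirOf line a b u w col hline z i⟩, ?_⟩
  rintro v ⟨hv, hi⟩
  obtain ⟨i', -, rfl⟩ := Finset.mem_image.1 hv
  rw [partOf_vtx dirOf line a b u w col hline] at hi
  rw [hi]

/-- What makes two items share a vertex: they lie on a common line, and if that line is one of the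
special lines of one of them it is the same special line of the other, whose colours agree. -/
structure Joins (X : Finset P) : Prop where
  join : ∀ z ∈ X, ∀ z' ∈ X, z ≠ z' → ∃ d, line z d = line z' d
  samea : ∀ z ∈ X, ∀ z' ∈ X, ∀ d, line z d = line z' d → line z d = a z → a z' = a z
  sameb : ∀ z ∈ X, ∀ z' ∈ X, ∀ d, line z d = line z' d → line z d = b z → b z' = b z
  disj : ∀ z ∈ X, ∀ z' ∈ X, a z ≠ b z'
  coleq : ∀ z ∈ X, col (a z) = col (b z)

variable {line a b col}

/-- Labels either agree in the first coordinate or in one of the forms `w - j u`. -/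
lemma exists_slope [Fact h.Prime] {u₁ u₂ w₁ w₂ : ZMod h} (hu : u₁ ≠ u₂) :
    ∃ j : ZMod h, w₁ - j * u₁ = w₂ - j * u₂ := by
  refine ⟨(w₁ - w₂) / (u₁ - u₂), ?_⟩
  field_simp [sub_ne_zero.2 hu]
  ring

/-- Two items share a vertex. -/
lemma share [Fact h.Prime] [DecidableEq L] {X : Finset P} (hJ : Joins line a b col X) {z z' : P}
    (hz : z ∈ X) (hz' : z' ∈ X) :
    ∃ i, vtx line a b u w col z i = vtx line a b u w col z' i := by
  rcases eq_or_ne z z' with rfl | hne
  · exact ⟨.inr 0, rfl⟩
  obtain ⟨d, hd⟩ := hJ.join z hz z' hz' hne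
  by_cases h1 : line z d = a z
  · have ha := hJ.samea z hz z' hz' d hd h1
    have h1' : line z' d = a z' := by rw [← hd, h1, ha]
    by_cases hu : u (b z) = u (b z')
    · exact ⟨.inl d, by simp only [vtx]; rw [if_pos h1, if_pos h1', ha, hu]⟩
    · obtain ⟨j, hj⟩ := exists_slope (w₁ := w (b z)) (w₂ := w (b z')) hu
      exact ⟨.inr j, by simp only [vtx, ha, hj]⟩
  by_cases h2 : line z d = b z
  · have hb := hJ.sameb z hz z' hz' d hd h2
    have h2' : line z' d = b z' := by rw [← hd, h2, hb]
    have h1' : line z' d ≠ a z' := fun h => hJ.disj z' hz' z' hz' (h ▸ h2')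
    by_cases hu : u (a z) = u (a z')
    · exact ⟨.inl d, by simp only [vtx]; rw [if_neg h1, if_neg h1', if_pos h2, if_pos h2', hb, hu]⟩
    · obtain ⟨j, hj⟩ := exists_slope (w₁ := w (a z)) (w₂ := w (a z')) hu
      exact ⟨.inr j, by simp only [vtx, hJ.coleq z hz, hJ.coleq z' hz', hb, hj]⟩
  have h1' : line z' d ≠ a z' := fun h => h1 (by
    rw [hd, h, hJ.samea z' hz' z hz d hd.symm h])
  have h2' : line z' d ≠ b z' := fun h => h2 (by
    rw [hd, h, hJ.sameb z' hz' z hz d hd.symm h])
  exact ⟨.inl d, by simp only [vtx]; rw [if_neg h1, if_neg h1', if_neg h2, if_neg h2', hd]⟩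

/-- The hypergraph is intersecting. -/
lemma edges_meet [Fact h.Prime] [Fintype D] [DecidableEq L] [DecidableEq Γ] {X : Finset P}
    (hJ : Joins line a b col X) {e f : Finset (Vert L Γ h)}
    (he : e ∈ edgesOf line a b u w col X) (hf : f ∈ edgesOf line a b u w col X) :
    ∃ v, v ∈ e ∧ v ∈ f := by
  obtain ⟨z, hz, rfl⟩ := Finset.mem_image.1 he
  obtain ⟨z', hz', rfl⟩ := Finset.mem_image.1 hf
  obtain ⟨i, hi⟩ := share u w hJ hz hz'
  exact ⟨vtx line a b u w col z i, Finset.mem_image.2 ⟨i, Finset.mem_univ _, rfl⟩,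
    hi ▸ Finset.mem_image.2 ⟨i, Finset.mem_univ _, rfl⟩⟩

end

/-- From an item set no `r - 1` vertices cover, an intersecting `r`-partite hypergraph with covering
number `r`. -/
theorem exists_hypergraph {P L D Γ : Type} {h : ℕ} [Fact h.Prime] [Fintype D] [DecidableEq L]
    [Fintype L] [Fintype Γ] [DecidableEq Γ] {dirOf : L → D} {line : P → D → L} {a b : P → L}
    {u w : L → ZMod h} {col : L → Γ} {X : Finset P} (hX : X.Nonempty)
    (hline : ∀ z d, dirOf (line z d) = d) (hJ : Joins line a b col X)
    (hcov : ∀ C : Finset (Vert L Γ h), C.card < Fintype.card D + h →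
      ∃ z ∈ X, ∀ i, vtx line a b u w col z i ∉ C) :
    ∃ (V : Type) (_ : Fintype V) (part : V → Fin (Fintype.card D + h)) (H : Finset (Finset V)),
      H.Nonempty ∧ (∀ e ∈ H, ∀ i, ∃! v, v ∈ e ∧ part v = i) ∧
        (∀ e ∈ H, ∀ f ∈ H, ∃ v, v ∈ e ∧ v ∈ f) ∧
        ∀ C : Finset V, (∀ e ∈ H, ∃ v ∈ C, v ∈ e) → Fintype.card D + h ≤ C.card := by
  have hc : Fintype.card (D ⊕ ZMod h) = Fintype.card D + h := by simp [ZMod.card]
  let ε : D ⊕ ZMod h ≃ Fin (Fintype.card D + h) := Fintype.equivFinOfCardEq hc
  refine ⟨Vert L Γ h, inferInstance, fun v => ε (partOf dirOf v), edgesOf line a b u w col X,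
    hX.image _, fun e he i => ?_, fun e he f hf => edges_meet u w hJ he hf, fun C hC => ?_⟩
  · simpa [← Equiv.eq_symm_apply] using edge_part dirOf line a b u w col hline he (ε.symm i)
  · by_contra hlt
    obtain ⟨z, hz, hzC⟩ := hcov C (not_le.1 hlt)
    obtain ⟨v, hv, hve⟩ := hC _ (Finset.mem_image.2 ⟨z, hz, rfl⟩)
    obtain ⟨i, -, rfl⟩ := Finset.mem_image.1 hve
    exact hzC i hv

end Vale.Agent.P045
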